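import Vale.Agent.P034.Defs
import Vale.Agent.P034.Bdl.B1

namespace Vale.Agent.Results.P034.Main

open Vale.Agent.P034

universe u

/-- Talagrand's conjecture: for every finite nonempty `X` and every nonempty proper increasing
family `F` of subsets of `X`, both maxima exist and `q_f(F) ≤ 12800 * q(F)`. -/
theorem result : ∀ (X : Type u) [Fintype X] [Nonempty X] (F : Set (Finset X)),
    F.Nonempty → F ≠ Set.univ → IsUpperSet F →
      IsGreatest {p : ℝ | 0 ≤ p ∧ p ≤ 1 ∧ IsSmall p F} (expThreshold F) ∧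
      IsGreatest {p : ℝ | 0 ≤ p ∧ p ≤ 1 ∧
        ∃ g : Finset X → ℝ, IsFracCover g F ∧ fracCost g p ≤ 1 / 2} (fracExpThreshold F) ∧
      fracExpThreshold F ≤ 12800 * expThreshold F :=
  fun _ _ _ F _ hne hup => main F hne hup

end Vale.Agent.Results.P034.Main
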